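import Vale.Agent.P214.TAYL.Scale

/-!
# Converse Taylor theorem (helper933, block TAYL): main statements

* `contDiffOn_of_approx` : scale form, finite order, uniform constants;
* `contDiffAt_of_approx` : local version;
* `contDiffOn_of_taylor` : pointwise Taylor polynomials with uniform constants;
* `contDiffOn_of_smooth_approx` : approximation by smooth functions with bounded `(k+1)`-th
  derivative at every point and scale;
* `contDiffOn_infty_of_...` : all orders.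
-/

open Set Metric Filter Topology

namespace Vale.Agent.P214.TAYL

universe u

variable {E : Type u} [NormedAddCommGroup E] [NormedSpace ℝ E]

/-- Order zero: Lipschitz continuity at points with approximation by constants. -/
theorem continuousAt_of_approx_zero {F : Type u} [NormedAddCommGroup F] [NormedSpace ℝ F]
    {u : E → F} {C r0 : ℝ} {x : E} (hr0 : 0 < r0) (h : Approx 0 u C r0 x) : ContinuousAt u x := by
  rw [Metric.continuousAt_iff]
  intro ε hε
  set r : ℝ := min r0 (ε / (2 * (|C| + 1))) with hr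
  have hrpos : 0 < r := by
    rw [hr]
    refine lt_min hr0 ?_
    positivity
  obtain ⟨P, ⟨c, rfl⟩, hP⟩ := h r hrpos (min_le_left _ _)
  refine ⟨r, hrpos, ?_⟩
  intro y hy
  rw [dist_eq_norm] at hy ⊢
  have h1 := hP y hy.le
  have h2 := hP x (by simpa using hrpos.le)
  simp only [zero_add, pow_one] at h1 h2
  have h3 : u y - u x = (u y - c) - (u x - c) := by abel
  have h4 : C * r ≤ |C| * r := mul_le_mul_of_nonneg_right (le_abs_self C) hrpos.le
  have h5 : r ≤ ε / (2 * (|C| + 1)) := min_le_right _ _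
  have h6 : |C| * r < ε / 2 := by
    have h7 : (|C| + 1) * r ≤ ε / 2 := by
      calc (|C| + 1) * r ≤ (|C| + 1) * (ε / (2 * (|C| + 1))) :=
            mul_le_mul_of_nonneg_left h5 (by positivity)
        _ = ε / 2 := by
            have : |C| + 1 ≠ 0 := by positivity
            field_simp
    nlinarith
  rw [h3]
  calc ‖(u y - c) - (u x - c)‖ ≤ ‖u y - c‖ + ‖u x - c‖ := norm_sub_le _ _
    _ < ε := by linarith

/-- **Converse Taylor theorem, scale form.** -/
theorem contDiffOn_of_approx (k : ℕ) : ∀ {F : Type u} [NormedAddCommGroup F] [NormedSpace ℝ F]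
    [CompleteSpace F] {u : E → F} {O : Set E} {C r0 : ℝ}, IsOpen O → 0 < r0 → 0 ≤ C →
    (∀ x ∈ O, Approx k u C r0 x) → ContDiffOn ℝ k u O := by
  induction k with
  | zero =>
    intro F _ _ _ u O C r0 hO hr0 hC h
    rw [Nat.cast_zero, contDiffOn_zero]
    intro x hx
    exact (continuousAt_of_approx_zero hr0 (h x hx)).continuousWithinAt
  | succ k ih =>
    intro F _ _ _ u O C r0 hO hr0 hC h
    obtain ⟨K, hK, hder⟩ := exists_hasFDerivAt (E := E) k
    obtain ⟨CM, hCM, hmarkov⟩ := markov (E := E) (k + 1)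
    -- differentiability on O
    have hd : ∀ x ∈ O, ∃ L : E →L[ℝ] F, HasFDerivAt u L x ∧
        ∀ (r : ℝ) (P : E → F), 0 < r → r ≤ r0 → IsPoly (k + 1) P →
        (∀ y, ‖y - x‖ ≤ r → ‖u y - P y‖ ≤ C * r ^ (k + 2)) →
        ‖L - fderiv ℝ P x‖ ≤ K * C * r ^ (k + 1) := fun x hx =>
      hder u C r0 x hr0 hC (h x hx)
    have hdiff : DifferentiableOn ℝ u O := fun x hx => by
      obtain ⟨L, hL, _⟩ := hd x hx
      exact hL.differentiableAt.differentiableWithinAt
    have hLest : ∀ x ∈ O, ∀ (r : ℝ) (P : E → F), 0 < r → r ≤ r0 → IsPoly (k + 1) P →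
        (∀ y, ‖y - x‖ ≤ r → ‖u y - P y‖ ≤ C * r ^ (k + 2)) →
        ‖fderiv ℝ u x - fderiv ℝ P x‖ ≤ K * C * r ^ (k + 1) := by
      intro x hx
      obtain ⟨L, hL, hL2⟩ := hd x hx
      rw [hL.fderiv]
      exact hL2
    push_cast
    rw [contDiffOn_succ_iff_fderiv_of_isOpen hO]
    refine ⟨hdiff, by simp, ?_⟩
    -- local statement for the derivative
    intro x0 hx0
    obtain ⟨δ, hδ, hball⟩ := Metric.isOpen_iff.1 hO x0 hx0
    set O' : Set E := ball x0 (δ / 2) with hO'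
    set r1 : ℝ := min (r0 / 2) (δ / 2) / 2 with hr1
    have hr1pos : 0 < r1 := by
      rw [hr1]
      have : 0 < min (r0 / 2) (δ / 2) := lt_min (by linarith) (by linarith)
      linarith
    have hr1r0 : 2 * r1 ≤ r0 := by
      have : min (r0 / 2) (δ / 2) ≤ r0 / 2 := min_le_left _ _
      rw [hr1]
      linarith
    have hr1δ : r1 ≤ δ / 4 := by
      have : min (r0 / 2) (δ / 2) ≤ δ / 2 := min_le_right _ _
      rw [hr1]
      linarith
    set C' : ℝ := K * C + CM * (C + C * 2 ^ (k + 2)) with hC'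
    have hC'0 : 0 ≤ C' := by
      rw [hC']
      positivity
    have hmain : ∀ x ∈ O', Approx k (fderiv ℝ u) C' r1 x := by
      intro x hx r hr hrr1
      have hxball : ‖x - x0‖ < δ / 2 := by
        rw [hO', mem_ball, dist_eq_norm] at hx
        exact hx
      have hxO : x ∈ O := hball (by
        rw [mem_ball, dist_eq_norm]
        linarith)
      obtain ⟨Q, hQ, hQu⟩ := h x hxO (2 * r) (by linarith) (by linarith)
      refine ⟨fderiv ℝ Q, hQ.2, ?_⟩
      intro y hy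
      have hyO : y ∈ O := hball (by
        rw [mem_ball, dist_eq_norm]
        calc ‖y - x0‖ = ‖(y - x) + (x - x0)‖ := by congr 1; abel
          _ ≤ ‖y - x‖ + ‖x - x0‖ := norm_add_le _ _
          _ < δ := by linarith)
      obtain ⟨P, hP, hPu⟩ := h y hyO r hr (by linarith)
      have h1 := hLest y hyO r P hr (by linarith) hP hPu
      have h2 := hmarkov (fun z => P z - Q z) (hP.sub hQ) y r
        (C * r ^ (k + 2) + C * (2 * r) ^ (k + 2)) hr (by
          intro z hz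
          have h3 := hPu z hz
          have h4 := hQu z (by
            calc ‖z - x‖ = ‖(z - y) + (y - x)‖ := by congr 1; abel
              _ ≤ ‖z - y‖ + ‖y - x‖ := norm_add_le _ _
              _ ≤ 2 * r := by linarith)
          have h5 : P z - Q z = (u z - Q z) - (u z - P z) := by abel
          rw [h5]
          calc ‖(u z - Q z) - (u z - P z)‖ ≤ ‖u z - Q z‖ + ‖u z - P z‖ := norm_sub_le _ _
            _ ≤ C * r ^ (k + 2) + C * (2 * r) ^ (k + 2) := by
                have h6 : C * (2 * r) ^ (k + 1 + 1) = C * (2 * r) ^ (k + 2) := by ring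
                have h7 : C * r ^ (k + 1 + 1) = C * r ^ (k + 2) := by ring
                rw [h6] at h4
                rw [h7] at h3
                linarith)
      rw [fderiv_fun_sub (hP.differentiable y) (hQ.differentiable y)] at h2
      have h8 : CM * (C * r ^ (k + 2) + C * (2 * r) ^ (k + 2)) / r =
          CM * (C + C * 2 ^ (k + 2)) * r ^ (k + 1) := by
        field_simp
        ring
      rw [h8] at h2
      have h9 : fderiv ℝ u y - fderiv ℝ Q y =
          (fderiv ℝ u y - fderiv ℝ P y) + (fderiv ℝ P y - fderiv ℝ Q y) := by abel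
      rw [h9]
      calc ‖(fderiv ℝ u y - fderiv ℝ P y) + (fderiv ℝ P y - fderiv ℝ Q y)‖
          ≤ ‖fderiv ℝ u y - fderiv ℝ P y‖ + ‖fderiv ℝ P y - fderiv ℝ Q y‖ := norm_add_le _ _
        _ ≤ K * C * r ^ (k + 1) + CM * (C + C * 2 ^ (k + 2)) * r ^ (k + 1) := add_le_add h1 h2
        _ = C' * r ^ (k + 1) := by rw [hC']; ring
    have hcd : ContDiffOn ℝ k (fderiv ℝ u) O' := ih isOpen_ball hr1pos hC'0 hmain
    exact (hcd.contDiffAt (isOpen_ball.mem_nhds (by
      rw [mem_ball, dist_self]; linarith))).contDiffWithinAt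

/-- Local version: uniform approximation on a neighbourhood. -/
theorem contDiffAt_of_approx {F : Type u} [NormedAddCommGroup F] [NormedSpace ℝ F]
    [CompleteSpace F] (k : ℕ) {u : E → F} {x0 : E} {C r0 δ : ℝ} (hr0 : 0 < r0) (hC : 0 ≤ C)
    (hδ : 0 < δ) (h : ∀ x, ‖x - x0‖ < δ → Approx k u C r0 x) : ContDiffAt ℝ k u x0 := by
  have h1 : ContDiffOn ℝ k u (ball x0 δ) :=
    contDiffOn_of_approx k isOpen_ball hr0 hC (fun x hx => h x (by
      rwa [mem_ball, dist_eq_norm] at hx))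
  exact h1.contDiffAt (ball_mem_nhds _ hδ)

/-- **Converse Taylor theorem, pointwise form.** -/
theorem contDiffOn_of_taylor {F : Type u} [NormedAddCommGroup F] [NormedSpace ℝ F]
    [CompleteSpace F] (k : ℕ) {u : E → F} {O : Set E}
    (p : E → (j : ℕ) → E [×j]→L[ℝ] F)
    (h : ∀ x0 ∈ O, ∃ C r0 δ : ℝ, 0 < r0 ∧ 0 < δ ∧ ∀ x, ‖x - x0‖ < δ → ∀ y, ‖y - x‖ ≤ r0 →
      ‖u y - ∑ j ∈ Finset.range (k + 1), p x j (fun _ => y - x)‖ ≤ C * ‖y - x‖ ^ (k + 1)) :
    ContDiffOn ℝ k u O := by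
  intro x0 hx0
  obtain ⟨C, r0, δ, hr0, hδ, hC⟩ := h x0 hx0
  refine (contDiffAt_of_approx k hr0 (abs_nonneg C) hδ ?_).contDiffWithinAt
  intro x hx r hr hrr0
  refine ⟨_, isPoly_multilinear k (p x) x, ?_⟩
  intro y hy
  refine (hC x hx y (hy.trans hrr0)).trans ?_
  calc C * ‖y - x‖ ^ (k + 1) ≤ |C| * ‖y - x‖ ^ (k + 1) :=
        mul_le_mul_of_nonneg_right (le_abs_self C) (by positivity)
    _ ≤ |C| * r ^ (k + 1) := by gcongr

/-- Taylor polynomial of a smooth function on a closed ball. -/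
theorem exists_poly_of_contDiffAt {F : Type u} [NormedAddCommGroup F] [NormedSpace ℝ F]
    [CompleteSpace F] (k : ℕ) {v : E → F} {x : E} {r B : ℝ} (hr : 0 ≤ r)
    (hv : ∀ y, ‖y - x‖ ≤ r → ContDiffAt ℝ (k + 1) v y)
    (hB : ∀ y, ‖y - x‖ ≤ r → ‖iteratedFDeriv ℝ (k + 1) v y‖ ≤ B) :
    ∃ P : E → F, IsPoly k P ∧ ∀ y, ‖y - x‖ ≤ r → ‖v y - P y‖ ≤ B * r ^ (k + 1) := by
  refine ⟨fun y => ∑ j ∈ Finset.range (k + 1),
    (((j.factorial : ℝ)⁻¹) • iteratedFDeriv ℝ j v x) (fun _ => y - x),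
    isPoly_multilinear k (fun j => ((j.factorial : ℝ)⁻¹) • iteratedFDeriv ℝ j v x) x, ?_⟩
  intro y hy
  have hB0 : 0 ≤ B := le_trans (norm_nonneg _) (hB x (by simpa using hr))
  have hseg : ∀ t : ℝ, t ∈ Set.Icc (0 : ℝ) 1 → ‖(x + t • (y - x)) - x‖ ≤ r := by
    intro t ht
    rw [add_sub_cancel_left, norm_smul, Real.norm_eq_abs, abs_of_nonneg ht.1]
    calc t * ‖y - x‖ ≤ 1 * ‖y - x‖ := mul_le_mul_of_nonneg_right ht.2 (norm_nonneg _)
      _ ≤ r := by rw [one_mul]; exact hy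
  have h1 := map_add_eq_sum_add_integral_iteratedFDeriv (f := v) (x := x) (y := y - x) (n := k)
    (fun t ht => hv _ (hseg t ht))
  rw [add_sub_cancel] at h1
  have h2 : v y - ∑ j ∈ Finset.range (k + 1),
      (((j.factorial : ℝ)⁻¹) • iteratedFDeriv ℝ j v x) (fun _ => y - x) =
      ((k.factorial : ℝ)⁻¹) • ∫ t in (0 : ℝ)..1, (1 - t) ^ k •
        iteratedFDeriv ℝ (k + 1) v (x + t • (y - x)) (fun _ => y - x) := by
    rw [h1]
    simp only [smul_apply]
    rw [add_sub_cancel_left]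
  rw [h2, norm_smul]
  have h3 : ‖∫ t in (0 : ℝ)..1, (1 - t) ^ k •
        iteratedFDeriv ℝ (k + 1) v (x + t • (y - x)) (fun _ => y - x)‖ ≤
      (B * r ^ (k + 1)) * |1 - 0| := by
    refine intervalIntegral.norm_integral_le_of_norm_le_const ?_
    intro t ht
    rw [Set.uIoc_of_le zero_le_one] at ht
    have ht' : t ∈ Set.Icc (0 : ℝ) 1 := ⟨ht.1.le, ht.2⟩
    rw [norm_smul]
    have h4 : ‖(1 - t) ^ k‖ ≤ 1 := by
      rw [norm_pow, Real.norm_eq_abs, abs_of_nonneg (by linarith [ht.2])]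
      exact pow_le_one₀ (by linarith [ht.2]) (by linarith [ht.1])
    have h5 : ‖iteratedFDeriv ℝ (k + 1) v (x + t • (y - x)) (fun _ => y - x)‖ ≤
        B * r ^ (k + 1) := by
      refine (ContinuousMultilinearMap.le_opNorm _ _).trans ?_
      rw [Finset.prod_const, Finset.card_univ, Fintype.card_fin]
      exact mul_le_mul (hB _ (hseg t ht')) (pow_le_pow_left₀ (norm_nonneg _) hy _)
        (by positivity) hB0
    calc ‖(1 - t) ^ k‖ * ‖iteratedFDeriv ℝ (k + 1) v (x + t • (y - x)) (fun _ => y - x)‖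
        ≤ 1 * (B * r ^ (k + 1)) := mul_le_mul h4 h5 (norm_nonneg _) zero_le_one
      _ = B * r ^ (k + 1) := one_mul _
  have h6 : ‖((k.factorial : ℝ)⁻¹)‖ ≤ 1 := by
    rw [norm_inv, Real.norm_eq_abs, abs_of_nonneg (by positivity)]
    exact inv_le_one_of_one_le₀ (by exact_mod_cast Nat.one_le_iff_ne_zero.2 (Nat.factorial_ne_zero k))
  calc ‖((k.factorial : ℝ)⁻¹)‖ * ‖∫ t in (0 : ℝ)..1, (1 - t) ^ k •
        iteratedFDeriv ℝ (k + 1) v (x + t • (y - x)) (fun _ => y - x)‖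
      ≤ 1 * ((B * r ^ (k + 1)) * |1 - 0|) := mul_le_mul h6 h3 (norm_nonneg _) zero_le_one
    _ = B * r ^ (k + 1) := by norm_num

/-- `u` is approximated by smooth functions with bounded `(k+1)`-th derivatives on all small
balls centred at `x`. -/
def SmoothApprox {F : Type u} [NormedAddCommGroup F] [NormedSpace ℝ F] (k : ℕ) (u : E → F)
    (C r0 : ℝ) (x : E) : Prop :=
  ∀ r, 0 < r → r ≤ r0 → ∃ v : E → F, (∀ y, ‖y - x‖ ≤ r → ContDiffAt ℝ (k + 1) v y) ∧
    (∀ y, ‖y - x‖ ≤ r → ‖iteratedFDeriv ℝ (k + 1) v y‖ ≤ C) ∧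
    ∀ y, ‖y - x‖ ≤ r → ‖u y - v y‖ ≤ C * r ^ (k + 1)

theorem SmoothApprox.approx {F : Type u} [NormedAddCommGroup F] [NormedSpace ℝ F]
    [CompleteSpace F] {k : ℕ} {u : E → F} {C r0 : ℝ} {x : E} (h : SmoothApprox k u C r0 x) :
    Approx k u (2 * C) r0 x := by
  intro r hr hrr0
  obtain ⟨v, hv1, hv2, hv3⟩ := h r hr hrr0
  obtain ⟨P, hP, hPv⟩ := exists_poly_of_contDiffAt k hr.le hv1 hv2
  refine ⟨P, hP, fun y hy => ?_⟩
  have h1 : u y - P y = (u y - v y) + (v y - P y) := by abel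
  rw [h1]
  calc ‖(u y - v y) + (v y - P y)‖ ≤ ‖u y - v y‖ + ‖v y - P y‖ := norm_add_le _ _
    _ ≤ C * r ^ (k + 1) + C * r ^ (k + 1) := add_le_add (hv3 y hy) (hPv y hy)
    _ = 2 * C * r ^ (k + 1) := by ring

/-- Approximation by smooth functions with bounded `(k+1)`-th derivatives, at all points near
`x0` and all small scales, gives `C^k` regularity. -/
theorem contDiffAt_of_smoothApprox {F : Type u} [NormedAddCommGroup F] [NormedSpace ℝ F]
    [CompleteSpace F] (k : ℕ) {u : E → F} {x0 : E} {C r0 δ : ℝ} (hr0 : 0 < r0) (hC : 0 ≤ C)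
    (hδ : 0 < δ) (h : ∀ x, ‖x - x0‖ < δ → SmoothApprox k u C r0 x) : ContDiffAt ℝ k u x0 :=
  contDiffAt_of_approx k hr0 (by positivity) hδ (fun x hx => (h x hx).approx)

/-- All orders: `C^∞` regularity. -/
theorem contDiffOn_infty_of_approx {F : Type u} [NormedAddCommGroup F] [NormedSpace ℝ F]
    [CompleteSpace F] {u : E → F} {O : Set E}
    (h : ∀ k : ℕ, ∀ x0 ∈ O, ∃ C r0 δ : ℝ, 0 ≤ C ∧ 0 < r0 ∧ 0 < δ ∧
      ∀ x, ‖x - x0‖ < δ → Approx k u C r0 x) : ContDiffOn ℝ (⊤ : ℕ∞) u O := by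
  rw [contDiffOn_infty]
  intro k x0 hx0
  obtain ⟨C, r0, δ, hC, hr0, hδ, h1⟩ := h k x0 hx0
  exact (contDiffAt_of_approx k hr0 hC hδ h1).contDiffWithinAt

theorem contDiffOn_infty_of_smoothApprox {F : Type u} [NormedAddCommGroup F] [NormedSpace ℝ F]
    [CompleteSpace F] {u : E → F} {O : Set E}
    (h : ∀ k : ℕ, ∀ x0 ∈ O, ∃ C r0 δ : ℝ, 0 ≤ C ∧ 0 < r0 ∧ 0 < δ ∧
      ∀ x, ‖x - x0‖ < δ → SmoothApprox k u C r0 x) : ContDiffOn ℝ (⊤ : ℕ∞) u O :=
  contDiffOn_infty_of_approx (fun k x0 hx0 => by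
    obtain ⟨C, r0, δ, hC, hr0, hδ, h1⟩ := h k x0 hx0
    exact ⟨2 * C, r0, δ, by positivity, hr0, hδ, fun x hx => (h1 x hx).approx⟩)

end Vale.Agent.P214.TAYL
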