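import Mathlib

/-!
# Polynomial maps of degree at most `k` and a Markov inequality (helper933, block TAYL)
-/

open Set Metric Filter Topology

namespace Vale.Agent.P214.TAYL

universe u

/-- Polynomial maps of degree at most `k`, defined through derivatives. -/
def IsPoly {E : Type u} [NormedAddCommGroup E] [NormedSpace ℝ E] :
    (k : ℕ) → {F : Type u} → [NormedAddCommGroup F] → [NormedSpace ℝ F] → (E → F) → Prop
  | 0, _, _, _, P => ∃ c, P = fun _ => c
  | k + 1, _, _, _, P => Differentiable ℝ P ∧ IsPoly k (fderiv ℝ P)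

variable {E : Type u} [NormedAddCommGroup E] [NormedSpace ℝ E]

theorem IsPoly.differentiable {k : ℕ} {F : Type u} [NormedAddCommGroup F] [NormedSpace ℝ F]
    {P : E → F} (h : IsPoly k P) : Differentiable ℝ P := by
  cases k with
  | zero => obtain ⟨c, rfl⟩ := h; exact differentiable_const c
  | succ k => exact h.1

theorem IsPoly.sub : ∀ {k : ℕ} {F : Type u} [NormedAddCommGroup F] [NormedSpace ℝ F]
    {P Q : E → F}, IsPoly k P → IsPoly k Q → IsPoly k (fun y => P y - Q y)
  | 0, _, _, _, _, _, ⟨c, hc⟩, ⟨d, hd⟩ => ⟨c - d, by subst hc; subst hd; rfl⟩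
  | k + 1, _, _, _, P, Q, hP, hQ => by
    refine ⟨hP.1.fun_sub hQ.1, ?_⟩
    have h1 : fderiv ℝ (fun y => P y - Q y) = fun y => fderiv ℝ P y - fderiv ℝ Q y := by
      funext y
      exact fderiv_fun_sub (hP.1 y) (hQ.1 y)
    rw [h1]
    exact IsPoly.sub hP.2 hQ.2

/-- A polynomial of degree at most `k` restricted to a line. -/
theorem IsPoly.line : ∀ {k : ℕ} {F : Type u} [NormedAddCommGroup F] [NormedSpace ℝ F]
    {P : E → F}, IsPoly k P → ∀ y v : E, ∃ a : ℕ → F,
      ∀ t : ℝ, P (y + t • v) = ∑ j ∈ Finset.range (k + 1), t ^ j • a j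
  | 0, _, _, _, _, ⟨c, hc⟩, _, _ => ⟨fun _ => c, fun t => by subst hc; simp⟩
  | k + 1, F, _, _, P, hP, y, v => by
    obtain ⟨b, hb⟩ := IsPoly.line hP.2 y v
    set a : ℕ → F := fun j => Nat.casesOn j (P y) (fun j => ((j : ℝ) + 1)⁻¹ • (b j v)) with ha
    refine ⟨a, ?_⟩
    have hd1 : ∀ t : ℝ, HasDerivAt (fun t : ℝ => P (y + t • v))
        (fderiv ℝ P (y + t • v) v) t := by
      intro t
      have h1 : HasDerivAt (fun t : ℝ => y + t • v) v t := by
        simpa using ((hasDerivAt_id t).smul_const v).const_add y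
      exact (hP.1 (y + t • v)).hasFDerivAt.comp_hasDerivAt t h1
    have hd2 : ∀ t : ℝ, HasDerivAt
        (fun t : ℝ => ∑ j ∈ Finset.range (k + 1 + 1), t ^ j • a j)
        (∑ j ∈ Finset.range (k + 1), t ^ j • b j v) t := by
      intro t
      have h1 : (fun t : ℝ => ∑ j ∈ Finset.range (k + 1 + 1), t ^ j • a j) =
          fun t : ℝ => (∑ j ∈ Finset.range (k + 1), t ^ (j + 1) • a (j + 1)) + a 0 := by
        funext t
        rw [Finset.sum_range_succ']
        simp
      rw [h1]
      refine HasDerivAt.add_const (a 0) ?_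
      refine HasDerivAt.fun_sum ?_
      intro j _
      have h2 : HasDerivAt (fun t : ℝ => t ^ (j + 1)) (((j : ℝ) + 1) * t ^ j) t := by
        simpa using hasDerivAt_pow (j + 1) t
      have h3 := h2.smul_const (a (j + 1))
      convert h3 using 1
      have h4 : ((j : ℝ) + 1) ≠ 0 := by positivity
      rw [ha]
      simp only
      rw [smul_smul]
      congr 1
      field_simp
    have hd3 : ∀ t : ℝ, HasDerivAt (fun t : ℝ => P (y + t • v) -
        ∑ j ∈ Finset.range (k + 1 + 1), t ^ j • a j) 0 t := by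
      intro t
      have h1 := (hd1 t).fun_sub (hd2 t)
      have h2 : fderiv ℝ P (y + t • v) v - ∑ j ∈ Finset.range (k + 1), t ^ j • b j v = 0 := by
        rw [hb t]
        simp
      rw [h2] at h1
      exact h1
    have hconst : ∀ t : ℝ, P (y + t • v) - ∑ j ∈ Finset.range (k + 1 + 1), t ^ j • a j =
        P (y + (0 : ℝ) • v) - ∑ j ∈ Finset.range (k + 1 + 1), (0 : ℝ) ^ j • a j := by
      intro t
      exact is_const_of_deriv_eq_zero (fun t => (hd3 t).differentiableAt)
        (fun t => (hd3 t).deriv) t 0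
    intro t
    have h1 := hconst t
    have h2 : P (y + (0 : ℝ) • v) - ∑ j ∈ Finset.range (k + 1 + 1), (0 : ℝ) ^ j • a j = 0 := by
      rw [Finset.sum_range_succ']
      simp [ha]
    rw [h2] at h1
    exact sub_eq_zero.1 h1

/-- Interpolation weights for the first derivative at `0`. -/
theorem exists_weights (k : ℕ) : ∃ (c t : Fin (k + 1) → ℝ), (∀ i, |t i| ≤ 1) ∧
    ∀ j : ℕ, j < k + 1 → ∑ i, c i * t i ^ j = if j = 1 then 1 else 0 := by
  classical
  set t : Fin (k + 1) → ℝ := fun i => (i : ℝ) / (k + 1) with ht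
  have hk : (0 : ℝ) < (k : ℝ) + 1 := by positivity
  have hinj : Set.InjOn t (Finset.univ : Finset (Fin (k + 1))) := by
    intro i _ j _ hij
    simp only [ht] at hij
    have h1 : ((i : ℕ) : ℝ) = ((j : ℕ) : ℝ) := by
      field_simp at hij
      exact hij
    exact Fin.ext (by exact_mod_cast h1)
  refine ⟨fun i => (Lagrange.basis Finset.univ t i).coeff 1, t, ?_, ?_⟩
  · intro i
    rw [ht]
    simp only
    rw [abs_of_nonneg (by positivity), div_le_one hk]
    have := i.2
    have h2 : ((i : ℕ) : ℝ) ≤ (k : ℝ) := by exact_mod_cast (by omega : (i : ℕ) ≤ k)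
    linarith
  · intro j hj
    have h1 : (Polynomial.X ^ j : Polynomial ℝ) = Lagrange.interpolate Finset.univ t
        (fun i => (Polynomial.X ^ j : Polynomial ℝ).eval (t i)) := by
      refine Lagrange.eq_interpolate hinj ?_
      rw [Polynomial.degree_X_pow]
      simp only [Finset.card_univ, Fintype.card_fin]
      exact_mod_cast hj
    have h2 := congrArg (fun p : Polynomial ℝ => p.coeff 1) h1
    simp only [Lagrange.interpolate_apply, Polynomial.eval_pow, Polynomial.eval_X,
      Polynomial.finsetSum_coeff, Polynomial.coeff_C_mul, Polynomial.coeff_X_pow] at h2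
    rw [← Finset.sum_congr rfl (fun i _ => mul_comm (t i ^ j)
      ((Lagrange.basis Finset.univ t i).coeff 1))]
    rw [← h2]
    by_cases hj1 : j = 1
    · simp [hj1]
    · have : ¬ (1 = j) := fun h => hj1 h.symm
      simp [hj1, this]

/-- Markov inequality for the first derivative. -/
theorem markov (k : ℕ) : ∃ C : ℝ, 0 < C ∧ ∀ {F : Type u} [NormedAddCommGroup F]
    [NormedSpace ℝ F] (P : E → F), IsPoly k P → ∀ (y : E) (ρ M : ℝ), 0 < ρ →
    (∀ z, ‖z - y‖ ≤ ρ → ‖P z‖ ≤ M) → ‖fderiv ℝ P y‖ ≤ C * M / ρ := by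
  obtain ⟨c, t, ht, hc⟩ := exists_weights k
  refine ⟨(∑ i, |c i|) + 1, by positivity, ?_⟩
  intro F _ _ P hP y ρ M hρ hM
  have hM0 : 0 ≤ M := le_trans (norm_nonneg _) (hM y (by simpa using hρ.le))
  -- bound on directions of norm at most ρ
  have key : ∀ v : E, ‖v‖ ≤ ρ → ‖fderiv ℝ P y v‖ ≤ ((∑ i, |c i|) + 1) * M := by
    intro v hv
    obtain ⟨a, ha⟩ := hP.line y v
    -- derivative at 0 along the line
    have hd1 : HasDerivAt (fun s : ℝ => P (y + s • v)) (fderiv ℝ P y v) 0 := by
      have h1 : HasDerivAt (fun s : ℝ => y + s • v) v 0 := by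
        simpa using ((hasDerivAt_id (0 : ℝ)).smul_const v).const_add y
      have h2 : HasFDerivAt P (fderiv ℝ P y) (y + (0 : ℝ) • v) := by
        simpa using (hP.differentiable y).hasFDerivAt
      exact h2.comp_hasDerivAt (0 : ℝ) h1
    cases k with
    | zero =>
      have h3 : fderiv ℝ P y = 0 := by
        obtain ⟨d, rfl⟩ := hP
        simp
      rw [h3]
      simp only [zero_apply, norm_zero]
      positivity
    | succ k =>
      have hd2 : HasDerivAt (fun s : ℝ => ∑ j ∈ Finset.range (k + 1 + 1), s ^ j • a j)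
          (a 1) 0 := by
        have h1 : (fun s : ℝ => ∑ j ∈ Finset.range (k + 1 + 1), s ^ j • a j) =
            fun s : ℝ => (∑ j ∈ Finset.range (k + 1), s ^ (j + 1) • a (j + 1)) + a 0 := by
          funext s
          rw [Finset.sum_range_succ']
          simp
        rw [h1]
        refine HasDerivAt.add_const (a 0) ?_
        have h5 : HasDerivAt (fun s : ℝ => ∑ j ∈ Finset.range (k + 1), s ^ (j + 1) • a (j + 1))
            (∑ j ∈ Finset.range (k + 1), (((j : ℝ) + 1) * (0 : ℝ) ^ j) • a (j + 1)) 0 := by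
          refine HasDerivAt.fun_sum ?_
          intro j _
          have h2 : HasDerivAt (fun t : ℝ => t ^ (j + 1)) (((j : ℝ) + 1) * (0 : ℝ) ^ j) 0 := by
            simpa using hasDerivAt_pow (j + 1) (0 : ℝ)
          exact h2.smul_const (a (j + 1))
        convert h5 using 1
        rw [Finset.sum_range_succ']
        simp
      have h6 : fderiv ℝ P y v = a 1 := by
        have h7 : (fun s : ℝ => P (y + s • v)) =
            fun s : ℝ => ∑ j ∈ Finset.range (k + 1 + 1), s ^ j • a j := funext ha
        rw [h7] at hd1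
        exact hd1.unique hd2
      have h8 : a 1 = ∑ i, c i • P (y + t i • v) := by
        have h9 : ∑ i, c i • P (y + t i • v) =
            ∑ j ∈ Finset.range (k + 1 + 1), (∑ i, c i * t i ^ j) • a j := by
          simp_rw [ha, Finset.smul_sum, smul_smul, Finset.sum_smul]
          exact Finset.sum_comm
        rw [h9]
        have h10 : ∀ j ∈ Finset.range (k + 1 + 1), (∑ i, c i * t i ^ j) • a j =
            if j = 1 then a 1 else 0 := by
          intro j hj
          rw [hc j (Finset.mem_range.1 hj)]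
          split_ifs with h
          · simp [h]
          · simp
        rw [Finset.sum_congr rfl h10, Finset.sum_ite_eq']
        simp
      rw [h6, h8]
      calc ‖∑ i, c i • P (y + t i • v)‖ ≤ ∑ i, ‖c i • P (y + t i • v)‖ := norm_sum_le _ _
        _ ≤ ∑ i, |c i| * M := by
            refine Finset.sum_le_sum fun i _ => ?_
            rw [norm_smul, Real.norm_eq_abs]
            refine mul_le_mul_of_nonneg_left (hM _ ?_) (abs_nonneg _)
            rw [add_sub_cancel_left, norm_smul, Real.norm_eq_abs]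
            calc |t i| * ‖v‖ ≤ 1 * ρ := mul_le_mul (ht i) hv (norm_nonneg _) zero_le_one
              _ = ρ := one_mul _
        _ = (∑ i, |c i|) * M := by rw [Finset.sum_mul]
        _ ≤ ((∑ i, |c i|) + 1) * M := by nlinarith
  refine ContinuousLinearMap.opNorm_le_bound _ (by positivity) ?_
  intro w
  by_cases hw : w = 0
  · simp [hw]
  have hw0 : 0 < ‖w‖ := norm_pos_iff.2 hw
  have h1 := key ((ρ / ‖w‖) • w) (by
    rw [norm_smul, Real.norm_eq_abs, abs_of_pos (by positivity)]
    rw [div_mul_cancel₀ _ hw0.ne'])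
  rw [map_smul, norm_smul, Real.norm_eq_abs, abs_of_pos (by positivity : 0 < ρ / ‖w‖)] at h1
  have h2 : ‖fderiv ℝ P y w‖ ≤ (((∑ i, |c i|) + 1) * M) * (‖w‖ / ρ) := by
    have h3 : ‖fderiv ℝ P y w‖ = (ρ / ‖w‖ * ‖fderiv ℝ P y w‖) * (‖w‖ / ρ) := by
      field_simp
    rw [h3]
    exact mul_le_mul_of_nonneg_right h1 (by positivity)
  calc ‖fderiv ℝ P y w‖ ≤ (((∑ i, |c i|) + 1) * M) * (‖w‖ / ρ) := h2
    _ = ((∑ i, |c i|) + 1) * M / ρ * ‖w‖ := by ring

theorem isPoly_of_finite : ∀ {k : ℕ} {F : Type u} [NormedAddCommGroup F] [NormedSpace ℝ F]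
    {P : E → F} {p : FormalMultilinearSeries ℝ E F} {x : E},
    HasFiniteFPowerSeriesOnBall P p x (k + 1) ⊤ → IsPoly k P
  | 0, _, _, _, P, p, x, h => by
    refine ⟨P x, funext fun y => ?_⟩
    exact h.eq_const_of_bound_one y (by simp)
  | k + 1, _, _, _, P, p, x, h => by
    refine ⟨?_, isPoly_of_finite h.fderiv⟩
    intro y
    exact (h.differentiableOn y (by simp)).differentiableAt (by simp)

/-- Sums of multilinear monomials are polynomial maps. -/
theorem isPoly_multilinear {F : Type u} [NormedAddCommGroup F] [NormedSpace ℝ F] (k : ℕ)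
    (p : (j : ℕ) → E [×j]→L[ℝ] F) (x : E) :
    IsPoly k (fun y => ∑ j ∈ Finset.range (k + 1), p j (fun _ => y - x)) := by
  classical
  set q : FormalMultilinearSeries ℝ E F := fun j => if j < k + 1 then p j else 0 with hq
  have h : HasFiniteFPowerSeriesOnBall
      (fun y => ∑ j ∈ Finset.range (k + 1), p j (fun _ => y - x)) q x (k + 1) ⊤ := by
    refine HasFiniteFPowerSeriesOnBall.mk' ?_ (by simp) ?_
    · intro m hm
      simp only [hq]
      rw [if_neg (by omega)]
    · intro y _
      simp only [add_sub_cancel_left]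
      refine Finset.sum_congr rfl fun j hj => ?_
      simp only [hq]
      rw [if_pos (Finset.mem_range.1 hj)]
  exact isPoly_of_finite h

end Vale.Agent.P214.TAYL
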