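import Vale.Agent.P214.TAYL.Poly

/-!
# Converse Taylor theorem, scale form (helper933, block TAYL)
-/

open Set Metric Filter Topology

namespace Vale.Agent.P214.TAYL

universe u

variable {E : Type u} [NormedAddCommGroup E] [NormedSpace ℝ E]

/-- `u` is approximated to order `k+1` on all balls of radius `r ≤ r0` centred at `x`. -/
def Approx {F : Type u} [NormedAddCommGroup F] [NormedSpace ℝ F] (k : ℕ) (u : E → F)
    (C r0 : ℝ) (x : E) : Prop :=
  ∀ r, 0 < r → r ≤ r0 → ∃ P : E → F, IsPoly k P ∧ ∀ y, ‖y - x‖ ≤ r → ‖u y - P y‖ ≤ C * r ^ (k + 1)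

/-- One point: the derivative exists and is approximated by the derivatives of the
approximating polynomials. -/
theorem exists_hasFDerivAt (k : ℕ) : ∃ K : ℝ, 0 < K ∧ ∀ {F : Type u} [NormedAddCommGroup F]
    [NormedSpace ℝ F] [CompleteSpace F] (u : E → F) (C r0 : ℝ) (x : E), 0 < r0 → 0 ≤ C →
    Approx (k + 1) u C r0 x → ∃ L : E →L[ℝ] F, HasFDerivAt u L x ∧
      ∀ (r : ℝ) (P : E → F), 0 < r → r ≤ r0 → IsPoly (k + 1) P →
        (∀ y, ‖y - x‖ ≤ r → ‖u y - P y‖ ≤ C * r ^ (k + 2)) →
        ‖L - fderiv ℝ P x‖ ≤ K * C * r ^ (k + 1) := by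
  obtain ⟨CM, hCM, hmarkov⟩ := markov (E := E) (k + 1)
  refine ⟨100 * CM, by positivity, ?_⟩
  intro F _ _ _ u C r0 x hr0 hC happ
  -- dyadic radii
  set ρ : ℕ → ℝ := fun i => r0 / 2 ^ i with hρ
  have hρpos : ∀ i, 0 < ρ i := fun i => by rw [hρ]; positivity
  have hself : ∀ i, ‖x - x‖ ≤ ρ i / 2 := fun i => by
    rw [sub_self, norm_zero]
    exact (half_pos (hρpos i)).le
  have hρsucc : ∀ i, ρ (i + 1) = ρ i / 2 := fun i => by
    simp only [hρ, pow_succ]
    field_simp
  have hρle : ∀ i, ρ i ≤ r0 := fun i => by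
    simp only [hρ]
    exact div_le_self hr0.le (one_le_pow₀ (by norm_num))
  have hex : ∀ i, ∃ P : E → F, IsPoly (k + 1) P ∧
      ∀ y, ‖y - x‖ ≤ ρ i → ‖u y - P y‖ ≤ C * ρ i ^ (k + 2) := fun i =>
    happ (ρ i) (hρpos i) (hρle i)
  choose P hPpoly hPapp using hex
  -- derivative comparison between two polynomials
  have hcmp : ∀ (r s : ℝ) (A B : E → F), 0 < s → s ≤ r → IsPoly (k + 1) A → IsPoly (k + 1) B →
      (∀ y, ‖y - x‖ ≤ r → ‖u y - A y‖ ≤ C * r ^ (k + 2)) →
      (∀ y, ‖y - x‖ ≤ s → ‖u y - B y‖ ≤ C * s ^ (k + 2)) →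
      ∀ z, ‖z - x‖ ≤ s / 2 → ‖fderiv ℝ A z - fderiv ℝ B z‖ ≤
        CM * (2 * C * r ^ (k + 2)) / (s / 2) := by
    intro r s A B hs hsr hA hB hAu hBu z hz
    have h1 := hmarkov (fun y => A y - B y) (hA.sub hB) z (s / 2) (2 * C * r ^ (k + 2))
      (by positivity) (by
        intro y hy
        have hyx : ‖y - x‖ ≤ s := by
          calc ‖y - x‖ = ‖(y - z) + (z - x)‖ := by congr 1; abel
            _ ≤ ‖y - z‖ + ‖z - x‖ := norm_add_le _ _
            _ ≤ s / 2 + s / 2 := add_le_add hy hz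
            _ = s := by ring
        have h2 := hAu y (hyx.trans hsr)
        have h3 := hBu y hyx
        have h4 : A y - B y = (u y - B y) - (u y - A y) := by abel
        rw [h4]
        have h5 : C * s ^ (k + 2) ≤ C * r ^ (k + 2) :=
          mul_le_mul_of_nonneg_left (pow_le_pow_left₀ hs.le hsr _) hC
        calc ‖(u y - B y) - (u y - A y)‖ ≤ ‖u y - B y‖ + ‖u y - A y‖ := norm_sub_le _ _
          _ ≤ 2 * C * r ^ (k + 2) := by linarith)
    rwa [fderiv_fun_sub (hA.differentiable z) (hB.differentiable z)] at h1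
  -- increments of the dyadic family
  have hinc : ∀ i, ∀ z, ‖z - x‖ ≤ ρ (i + 1) / 2 →
      ‖fderiv ℝ (P i) z - fderiv ℝ (P (i + 1)) z‖ ≤ 8 * CM * C * ρ i ^ (k + 1) := by
    intro i z hz
    have h1 := hcmp (ρ i) (ρ (i + 1)) (P i) (P (i + 1)) (hρpos _)
      (by rw [hρsucc]; linarith [hρpos i]) (hPpoly i) (hPpoly (i + 1)) (hPapp i) (hPapp (i + 1))
      z hz
    refine h1.trans (le_of_eq ?_)
    rw [hρsucc]
    have := (hρpos i).ne'
    field_simp
    ring
  set Li : ℕ → (E →L[ℝ] F) := fun i => fderiv ℝ (P i) x with hLi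
  have hLinc : ∀ i, dist (Li i) (Li (i + 1)) ≤ (8 * CM * C * r0 ^ (k + 1)) * (1 / 2 : ℝ) ^ i := by
    intro i
    rw [dist_eq_norm]
    have h1 := hinc i x (hself (i + 1))
    refine h1.trans ?_
    have h2 : ρ i ^ (k + 1) ≤ r0 ^ (k + 1) * (1 / 2 : ℝ) ^ i := by
      have h3 : ρ i ^ (k + 1) = r0 ^ (k + 1) * ((1 / 2 : ℝ) ^ i) ^ (k + 1) := by
        rw [← mul_pow]
        congr 1
        simp only [hρ, one_div, inv_pow]
        rfl
      rw [h3]
      refine mul_le_mul_of_nonneg_left ?_ (by positivity)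
      calc ((1 / 2 : ℝ) ^ i) ^ (k + 1) ≤ ((1 / 2 : ℝ) ^ i) ^ 1 :=
            pow_le_pow_of_le_one (by positivity) (pow_le_one₀ (by norm_num) (by norm_num)) (by omega)
        _ = _ := pow_one _
    calc 8 * CM * C * ρ i ^ (k + 1) ≤ 8 * CM * C * (r0 ^ (k + 1) * (1 / 2 : ℝ) ^ i) :=
          mul_le_mul_of_nonneg_left h2 (by positivity)
      _ = _ := by ring
  have hcauchy : CauchySeq Li := cauchySeq_of_le_geometric (1 / 2) _ (by norm_num) hLinc
  obtain ⟨L, hL⟩ := cauchySeq_tendsto_of_complete hcauchy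
  -- tail estimate
  have hLtail : ∀ i, ‖Li i - L‖ ≤ 16 * CM * C * ρ i ^ (k + 1) := by
    intro i
    have h1 : ∀ j, dist (Li (i + j)) (Li (i + j + 1)) ≤
        (8 * CM * C * ρ i ^ (k + 1)) * (1 / 2 : ℝ) ^ j := by
      intro j
      rw [dist_eq_norm]
      refine (hinc (i + j) x (hself (i + j + 1))).trans ?_
      have h2 : ρ (i + j) = ρ i * (1 / 2 : ℝ) ^ j := by
        simp only [hρ, pow_add, one_div, inv_pow]
        field_simp
      rw [h2, mul_pow]
      have h3 : ((1 / 2 : ℝ) ^ j) ^ (k + 1) ≤ (1 / 2 : ℝ) ^ j := by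
        calc ((1 / 2 : ℝ) ^ j) ^ (k + 1) ≤ ((1 / 2 : ℝ) ^ j) ^ 1 :=
              pow_le_pow_of_le_one (by positivity) (pow_le_one₀ (by norm_num) (by norm_num))
                (by omega)
          _ = _ := pow_one _
      calc 8 * CM * C * (ρ i ^ (k + 1) * ((1 / 2 : ℝ) ^ j) ^ (k + 1))
          ≤ 8 * CM * C * (ρ i ^ (k + 1) * (1 / 2 : ℝ) ^ j) := by
            have := hρpos i
            gcongr
        _ = _ := by ring
    have h4 : Tendsto (fun j => Li (i + j)) atTop (𝓝 L) := by
      have := hL.comp (tendsto_add_atTop_nat i)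
      simpa [Function.comp_def, add_comm] using this
    have h5 := dist_le_of_le_geometric_of_tendsto₀ (1 / 2 : ℝ) _ (by norm_num) h1 h4
    rw [dist_eq_norm, add_zero] at h5
    refine h5.trans (le_of_eq ?_)
    ring
  -- first order control of `u - P i`
  have hosc : ∀ n i : ℕ, ∀ y, ρ (i + n + 1) / 2 < ‖y - x‖ → ‖y - x‖ ≤ ρ (i + n) / 2 →
      ‖(u y - P i y) - (u x - P i x)‖ ≤ 16 * (1 + CM) * C * ρ i ^ (k + 1) * ‖y - x‖ := by
    intro n
    induction n with
    | zero =>
      intro i y hy1 hy2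
      rw [add_zero] at hy1 hy2
      have h1 := hPapp i y (hy2.trans (by linarith [hρpos i]))
      have h2 := hPapp i x (by simp [(hρpos i).le])
      have h3 : ρ i ≤ 4 * ‖y - x‖ := by
        rw [hρsucc] at hy1
        linarith
      calc ‖(u y - P i y) - (u x - P i x)‖ ≤ ‖u y - P i y‖ + ‖u x - P i x‖ := norm_sub_le _ _
        _ ≤ 2 * C * ρ i ^ (k + 1) * ρ i := by
            have : ρ i ^ (k + 2) = ρ i ^ (k + 1) * ρ i := by ring
            rw [this] at h1 h2
            linarith
        _ ≤ 2 * C * ρ i ^ (k + 1) * (4 * ‖y - x‖) := by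
            have := hρpos i
            gcongr
        _ ≤ 16 * (1 + CM) * C * ρ i ^ (k + 1) * ‖y - x‖ := by
            have h4 : 0 ≤ C * ρ i ^ (k + 1) * ‖y - x‖ := by
              have := hρpos i
              positivity
            nlinarith [mul_nonneg hCM.le h4]
    | succ n ih =>
      intro i y hy1 hy2
      have e1 : i + (n + 1) = (i + 1) + n := by ring
      have h1 := ih (i + 1) y (by rw [← e1]; exact hy1) (by rw [← e1]; exact hy2)
      -- radius comparison
      have hle : ∀ n : ℕ, ρ (i + (n + 1)) ≤ ρ (i + 1) := by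
        intro n
        simp only [hρ]
        exact div_le_div_of_nonneg_left hr0.le (by positivity)
          (pow_le_pow_right₀ (by norm_num) (by omega))
      have hy3 : ‖y - x‖ ≤ ρ (i + 1) / 2 := hy2.trans (by linarith [hle n])
      -- mean value inequality for P i - P (i+1)
      have h2 : ‖(P i y - P (i + 1) y) - (P i x - P (i + 1) x)‖ ≤
          8 * CM * C * ρ i ^ (k + 1) * ‖y - x‖ := by
        have hconv : Convex ℝ (closedBall x (ρ (i + 1) / 2)) := convex_closedBall _ _
        refine Convex.norm_image_sub_le_of_norm_hasFDerivWithin_le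
          (f := fun y => P i y - P (i + 1) y)
          (f' := fun y => fderiv ℝ (P i) y - fderiv ℝ (P (i + 1)) y)
          (s := closedBall x (ρ (i + 1) / 2)) ?_ ?_ hconv ?_ ?_
        · intro z _
          exact (((hPpoly i).differentiable z).hasFDerivAt.fun_sub
            ((hPpoly (i + 1)).differentiable z).hasFDerivAt).hasFDerivWithinAt
        · intro z hz
          rw [mem_closedBall, dist_eq_norm] at hz
          exact hinc i z hz
        · rw [mem_closedBall, dist_eq_norm]; exact hself (i + 1)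
        · rw [mem_closedBall, dist_eq_norm]; exact hy3
      have h3 : (u y - P i y) - (u x - P i x) =
          ((u y - P (i + 1) y) - (u x - P (i + 1) x)) -
            ((P i y - P (i + 1) y) - (P i x - P (i + 1) x)) := by abel
      rw [h3]
      have h4 : ρ (i + 1) ^ (k + 1) ≤ ρ i ^ (k + 1) / 2 := by
        rw [hρsucc, div_pow]
        have h5 : (2 : ℝ) ≤ 2 ^ (k + 1) := by
          calc (2 : ℝ) = 2 ^ 1 := (pow_one _).symm
            _ ≤ 2 ^ (k + 1) := pow_le_pow_right₀ (by norm_num) (by omega)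
        exact div_le_div_of_nonneg_left (pow_nonneg (hρpos i).le _) (by norm_num) h5
      calc ‖((u y - P (i + 1) y) - (u x - P (i + 1) x)) -
            ((P i y - P (i + 1) y) - (P i x - P (i + 1) x))‖
          ≤ ‖(u y - P (i + 1) y) - (u x - P (i + 1) x)‖ +
            ‖(P i y - P (i + 1) y) - (P i x - P (i + 1) x)‖ := norm_sub_le _ _
        _ ≤ 16 * (1 + CM) * C * (ρ i ^ (k + 1) / 2) * ‖y - x‖ +
            8 * CM * C * ρ i ^ (k + 1) * ‖y - x‖ := by
            refine add_le_add (h1.trans ?_) h2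
            gcongr
        _ ≤ 16 * (1 + CM) * C * ρ i ^ (k + 1) * ‖y - x‖ := by
            have h6 : 0 ≤ C * ρ i ^ (k + 1) * ‖y - x‖ := by
              have := hρpos i
              positivity
            nlinarith [mul_nonneg hCM.le h6]
  -- every small `y ≠ x` lies in one dyadic annulus
  have hann : ∀ i : ℕ, ∀ y, y ≠ x → ‖y - x‖ ≤ ρ i / 2 →
      ∃ n, ρ (i + n + 1) / 2 < ‖y - x‖ ∧ ‖y - x‖ ≤ ρ (i + n) / 2 := by
    intro i y hy hyi
    have hpos : 0 < ‖y - x‖ := norm_pos_iff.2 (sub_ne_zero.2 hy)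
    have hlim : Tendsto (fun n => ρ (i + n) / 2) atTop (𝓝 0) := by
      have h1 : Tendsto (fun n : ℕ => (ρ i / 2) * (1 / 2 : ℝ) ^ n) atTop (𝓝 0) := by
        have := (tendsto_pow_atTop_nhds_zero_of_lt_one (r := (1 / 2 : ℝ)) (by norm_num)
          (by norm_num)).const_mul (ρ i / 2)
        simpa using this
      refine h1.congr fun n => ?_
      simp only [hρ, pow_add, one_div, inv_pow]
      field_simp
    have hex : ∃ n, ρ (i + n) / 2 < ‖y - x‖ :=
      ((hlim.eventually_lt_const hpos).exists)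
    classical
    obtain ⟨hn1, hn2⟩ := And.intro (Nat.find_spec hex) (fun m => Nat.find_min hex (m := m))
    set N := Nat.find hex with hN
    have hN0 : N ≠ 0 := by
      intro h0
      rw [h0, add_zero] at hn1
      linarith
    obtain ⟨M, hM⟩ := Nat.exists_eq_succ_of_ne_zero hN0
    refine ⟨M, ?_, ?_⟩
    · rw [hM] at hn1
      exact hn1
    · have := hn2 M (by omega)
      exact not_lt.1 this
  refine ⟨L, ?_, ?_⟩
  · rw [hasFDerivAt_iff_isLittleO, Asymptotics.isLittleO_iff]
    intro ε hε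
    -- choose i large
    have hlim : Tendsto (fun i => (16 * (1 + CM) * C + 16 * CM * C) * ρ i ^ (k + 1)) atTop
        (𝓝 0) := by
      have h1 : Tendsto ρ atTop (𝓝 0) := by
        have := (tendsto_pow_atTop_nhds_zero_of_lt_one (r := (1 / 2 : ℝ)) (by norm_num)
          (by norm_num)).const_mul r0
        rw [mul_zero] at this
        refine this.congr fun n => ?_
        simp only [hρ, one_div, inv_pow]
        rfl
      have h2 := (h1.pow (k + 1)).const_mul (16 * (1 + CM) * C + 16 * CM * C)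
      simpa using h2
    obtain ⟨i, hi⟩ := (hlim.eventually_lt_const (half_pos hε)).exists
    have hPi : HasFDerivAt (P i) (Li i) x := ((hPpoly i).differentiable x).hasFDerivAt
    rw [hasFDerivAt_iff_isLittleO, Asymptotics.isLittleO_iff] at hPi
    have h1 := hPi (half_pos hε)
    have h2 : ∀ᶠ y in 𝓝 x, ‖y - x‖ ≤ ρ i / 2 := by
      filter_upwards [closedBall_mem_nhds x (half_pos (hρpos i))] with y hy
      rwa [mem_closedBall, dist_eq_norm] at hy
    filter_upwards [h1, h2] with y hy1 hy2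
    by_cases hyx : y = x
    · simp [hyx]
    obtain ⟨n, hn1, hn2⟩ := hann i y hyx hy2
    have h3 := hosc n i y hn1 hn2
    have h4 : u y - u x - L (y - x) = ((u y - P i y) - (u x - P i x)) +
        (P i y - P i x - Li i (y - x)) + (Li i - L) (y - x) := by
      simp only [sub_apply]
      abel
    rw [h4]
    have h5 : ‖(Li i - L) (y - x)‖ ≤ 16 * CM * C * ρ i ^ (k + 1) * ‖y - x‖ :=
      (ContinuousLinearMap.le_opNorm _ _).trans
        (mul_le_mul_of_nonneg_right (hLtail i) (norm_nonneg _))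
    calc ‖((u y - P i y) - (u x - P i x)) + (P i y - P i x - Li i (y - x)) + (Li i - L) (y - x)‖
        ≤ ‖(u y - P i y) - (u x - P i x)‖ + ‖P i y - P i x - Li i (y - x)‖ +
          ‖(Li i - L) (y - x)‖ := norm_add₃_le
      _ ≤ 16 * (1 + CM) * C * ρ i ^ (k + 1) * ‖y - x‖ + ε / 2 * ‖y - x‖ +
          16 * CM * C * ρ i ^ (k + 1) * ‖y - x‖ := by gcongr
      _ = ((16 * (1 + CM) * C + 16 * CM * C) * ρ i ^ (k + 1) + ε / 2) * ‖y - x‖ := by ring
      _ ≤ ε * ‖y - x‖ := by
          refine mul_le_mul_of_nonneg_right ?_ (norm_nonneg _)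
          linarith
  · intro r Q hr hrr0 hQ hQu
    -- find i with ρ (i+1) < r ≤ ρ i, or use i = 0
    have hlim : Tendsto ρ atTop (𝓝 0) := by
      have := (tendsto_pow_atTop_nhds_zero_of_lt_one (r := (1 / 2 : ℝ)) (by norm_num)
        (by norm_num)).const_mul r0
      rw [mul_zero] at this
      refine this.congr fun n => ?_
      simp only [hρ, one_div, inv_pow]
      rfl
    have hex : ∃ n, ρ n < r := (hlim.eventually_lt_const hr).exists
    classical
    obtain ⟨hn1, hn2⟩ := And.intro (Nat.find_spec hex) (fun m => Nat.find_min hex (m := m))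
    set N := Nat.find hex with hN
    have hN0 : N ≠ 0 := by
      intro h0
      rw [h0] at hn1
      have : ρ 0 = r0 := by simp [hρ]
      linarith
    obtain ⟨M, hM⟩ := Nat.exists_eq_succ_of_ne_zero hN0
    have hrM : r ≤ ρ M := not_lt.1 (hn2 M (by omega))
    have hrN : r ≤ 2 * ρ N := by
      have h6 : ρ N = ρ M / 2 := by rw [hM]; exact hρsucc M
      linarith
    have h1 := hcmp r (ρ N) Q (P N) (hρpos N) hn1.le hQ (hPpoly N) hQu (hPapp N) x
      (hself N)
    have h2 : CM * (2 * C * r ^ (k + 2)) / (ρ N / 2) ≤ 8 * CM * C * r ^ (k + 1) := by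
      rw [div_le_iff₀ (by linarith [hρpos N])]
      have h3 : r ^ (k + 2) = r ^ (k + 1) * r := by ring
      rw [h3]
      have h4 : 0 ≤ CM * C * r ^ (k + 1) := by positivity
      nlinarith
    have h3 := hLtail N
    have h4 : ρ N ^ (k + 1) ≤ r ^ (k + 1) := pow_le_pow_left₀ (hρpos N).le hn1.le _
    have h5 : L - fderiv ℝ Q x = -(Li N - L) - (fderiv ℝ Q x - fderiv ℝ (P N) x) := by
      simp only [hLi]
      abel
    rw [h5]
    calc ‖-(Li N - L) - (fderiv ℝ Q x - fderiv ℝ (P N) x)‖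
        ≤ ‖-(Li N - L)‖ + ‖fderiv ℝ Q x - fderiv ℝ (P N) x‖ := norm_sub_le _ _
      _ ≤ 16 * CM * C * r ^ (k + 1) + 8 * CM * C * r ^ (k + 1) := by
          rw [norm_neg]
          refine add_le_add (h3.trans ?_) (h1.trans h2)
          gcongr
      _ ≤ 100 * CM * C * r ^ (k + 1) := by
          have h6 : 0 ≤ CM * C * r ^ (k + 1) := by positivity
          nlinarith

end Vale.Agent.P214.TAYL
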